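import Mathlib
import Vale.Agent.Lib.P347.Defs
import Vale.Agent.Lib.P347.Lower

namespace Vale.Agent.Results.P347.SeedTradeoff

open MeasureTheory Vale.Agent.Lib.P347

/-- Let `A` be a randomized adaptive algorithm making `q` first-order queries in dimension `d`
whose query points depend on the random seed only through a statistic `s` taking at most `N`
values. If `q * N + 2 ≤ d`, then for some potential `V` of the class (`C^2`, `V 0 = 0`,
`∇ V 0 = 0`, `I ≤ ∇² V ≤ 2 I`) the output law of `A` is at total variation distance more than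
`1 / 10` from the Gibbs law of `V`. -/
theorem result (d q N : ℕ) (hqN : q * N + 2 ≤ d) (A : Algorithm d q) (s : A.Ω → Fin N)
    (hs : ∀ (k : ℕ) (ω ω' : A.Ω) (h : Fin k → ℝ × EuclideanSpace ℝ (Fin d)),
      s ω = s ω' → A.next k ω h = A.next k ω' h) :
    ∃ V : EuclideanSpace ℝ (Fin d) → ℝ, Admissible V ∧
      ∃ B : Set (EuclideanSpace ℝ (Fin d)), MeasurableSet B ∧
        1 / 10 < |(A.law V).real B - (gibbs V).real B| :=
  seed_tradeoff d q N hqN A s hs

end Vale.Agent.Results.P347.SeedTradeoff
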